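import Vale.Agent.P181.TW.T2
import Vale.Agent.P181.DG6.H887.Mark
import Vale.Agent.P181.O2.H104.Core

set_option autoImplicit false

/-!
# P181, O2, (A2): one letter larger than `b`, few other letters
-/

open MvPolynomial

namespace Vale.Agent.P181.O2.H247

open Vale.Agent.P181.T4 (HW)
open Vale.Agent.P181.SZ (TI mem_TI PT nn)
open Vale.Agent.P181.DG (PKT NT KT)
open Vale.Agent.P181.TW.T2 (mem_KT le_zero)
open Vale.Agent.P181.O2.H104 (Gd mem_PT sum_biUnion_le)

/-- No condition on the degrees beyond the weight. -/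
lemma TI_le {a b m : ℕ} {mu : Fin m → ℕ} :
    TI a b m mu ≤ TI a (∑ i, mu i) m mu := by
  intro f hf
  obtain ⟨h0, h1, h2, h3⟩ := mem_TI.1 hf
  refine mem_TI.2 ⟨h0, h1, fun v hv j => ?_, h3⟩
  refine Finset.sum_le_sum fun i _ => ?_
  rw [← h0.1 v hv i]
  exact Finset.single_le_sum (f := fun j => v (i, j)) (fun _ _ => Nat.zero_le _)
    (Finset.mem_univ j)

open scoped Classical in
/-- **(A2)** `a` points: one letter larger than `b`, at most `(a - 3) / 3` other letters, all
`≤ b`. -/
theorem lo (a b m : ℕ) (mu : Fin m → ℕ) (ha : 3 ≤ a) (hb : 3 ≤ b) :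
    Module.finrank ℂ (TI a b m mu) +
      ∑ K ∈ (PT (∑ i, mu i)).filter (fun K => ∃ x ∈ K, b < x ∧ (∀ y ∈ K.erase x, y ≤ b) ∧
        3 * Multiset.card (K.erase x) + 3 ≤ a), nn m mu K ≤
      Module.finrank ℂ (TI a (∑ i, mu i) m mu) := by
  generalize hw : ∑ i, mu i = w
  have hTI := TI_le (a := a) (b := b) (mu := mu)
  rw [hw] at hTI
  rcases Nat.lt_or_ge b w with hbw | hbw
  · -- the large letters
    have h2 : (PT w).filter (fun K => ∃ x ∈ K, b < x ∧ (∀ y ∈ K.erase x, y ≤ b) ∧
        3 * Multiset.card (K.erase x) + 3 ≤ a) ⊆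
        (Finset.Ioc b w).biUnion fun x => ((PT (w - x)).filter
          (fun k => (∀ y ∈ k, y < b + 1) ∧ 3 * Multiset.card k ≤ a - 3)).image
            fun k => x ::ₘ k := by
      intro K hK
      rw [Finset.mem_filter, mem_PT] at hK
      obtain ⟨⟨hK1, hK2⟩, x, hx, hbx, hy, hc⟩ := hK
      have e1 : (x ::ₘ K.erase x).sum = w := by rw [Multiset.cons_erase hx, hK1]
      rw [Multiset.sum_cons] at e1
      rw [Finset.mem_biUnion]
      refine ⟨x, Finset.mem_Ioc.2 ⟨hbx, by omega⟩, ?_⟩
      rw [Finset.mem_image]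
      refine ⟨K.erase x, ?_, Multiset.cons_erase hx⟩
      rw [Finset.mem_filter, mem_PT]
      refine ⟨⟨by omega, fun y hy => hK2 y (Multiset.mem_of_mem_erase hy)⟩,
        fun y h => Nat.lt_succ_of_le (hy y h), by omega⟩
    have h3 : ∑ K ∈ (PT w).filter (fun K => ∃ x ∈ K, b < x ∧ (∀ y ∈ K.erase x, y ≤ b) ∧
        3 * Multiset.card (K.erase x) + 3 ≤ a), nn m mu K ≤
        ∑ x ∈ Finset.Ioc b w, NT m (b + 1) mu {x} (a - 3) := by
      refine (Finset.sum_le_sum_of_subset h2).trans ((sum_biUnion_le _ _ _).trans ?_)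
      refine Finset.sum_le_sum fun x hx => ?_
      rw [Finset.sum_image fun k1 _ k2 _ h => (Multiset.cons_inj_right x).1 h]
      have hx2 := Finset.mem_Ioc.1 hx
      exact Vale.Agent.P181.DG6.H887.markT m (b + 1) x (a - 3) (w - x) mu (by omega) (by omega)
        (by omega)
    -- `LowT`
    have h4 := Vale.Agent.P181.DGx.H248.lowT w a m (b + 1) mu (by omega) (by omega)
    rw [hw] at h4
    have h5 : insert 0 ((Finset.Ioc b w).image fun x => ({x} : Multiset ℕ)) ⊆
        (KT w (b + 1)).filter (fun k => 3 * Multiset.card k ≤ a ∧ ∀ x ∈ k, x ≤ w) := by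
      intro k hk
      rw [Finset.mem_filter, mem_KT (by omega)]
      rcases Finset.mem_insert.1 hk with rfl | hk
      · exact ⟨⟨by simp, fun x hx => absurd hx (Multiset.notMem_zero x)⟩, by simp,
          fun x hx => absurd hx (Multiset.notMem_zero x)⟩
      · obtain ⟨x, hx, rfl⟩ := Finset.mem_image.1 hk
        have hx2 := Finset.mem_Ioc.1 hx
        refine ⟨⟨by rw [Multiset.sum_singleton]; exact hx2.2, fun y hy => ?_⟩,
          by rw [Multiset.card_singleton]; omega, fun y hy => ?_⟩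
        · rw [Multiset.mem_singleton.1 hy]
          exact hx2.1
        · rw [Multiset.mem_singleton.1 hy]
          exact hx2.2
    have h6 := (Finset.sum_le_sum_of_subset (f := fun kap =>
      NT m (b + 1) mu kap (a - 3 * Multiset.card kap)) h5).trans h4
    rw [Finset.sum_insert, Finset.sum_image] at h6
    · have h7 : NT m (b + 1) mu 0 (a - 3 * Multiset.card (0 : Multiset ℕ)) =
          NT m (b + 1) mu 0 a := by
        rw [Multiset.card_zero, mul_zero, Nat.sub_zero]
      have h8 : ∀ x ∈ Finset.Ioc b w, NT m (b + 1) mu {x} (a - 3 * Multiset.card {x}) =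
          NT m (b + 1) mu {x} (a - 3) := fun x _ => by
        rw [Multiset.card_singleton, mul_one]
      rw [h7, Finset.sum_congr rfl h8] at h6
      have h9 := le_zero m b a mu
      omega
    · intro x _ y _ h
      exact Multiset.singleton_inj.1 h
    · intro h
      obtain ⟨x, _, hx⟩ := Finset.mem_image.1 h
      exact Multiset.singleton_ne_zero x hx
  · have h2 : (PT w).filter (fun K => ∃ x ∈ K, b < x ∧ (∀ y ∈ K.erase x, y ≤ b) ∧
        3 * Multiset.card (K.erase x) + 3 ≤ a) = ∅ := by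
      refine Finset.filter_eq_empty_iff.2 fun K hK => ?_
      rintro ⟨x, hx, hbx, -⟩
      have h3 := Multiset.le_sum_of_mem hx
      rw [(mem_PT.1 hK).1] at h3
      omega
    rw [h2, Finset.sum_empty, add_zero]
    exact Submodule.finrank_mono hTI

open scoped Classical in
/-- **(A2)**, the form `h2` of `O2.H104.core`. -/
theorem h2 (a b m : ℕ) (mu : Fin m → ℕ) (ha : 3 ≤ a) (hab : a ≤ b) :
    Module.finrank ℂ (TI a b m mu) +
      ∑ K ∈ (PT (∑ i, mu i)).filter (fun K => ∃ x ∈ K, b < x ∧ Gd a (K.erase x)), nn m mu K ≤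
      Module.finrank ℂ (TI a (∑ i, mu i) m mu) := by
  refine le_trans (Nat.add_le_add_left ?_ _) (lo a b m mu ha (by omega))
  refine Finset.sum_le_sum_of_subset fun k hk => ?_
  rw [Finset.mem_filter] at hk ⊢
  obtain ⟨hk, x, hx, hbx, hg1, hg2⟩ := hk
  refine ⟨hk, x, hx, hbx, fun y hy => ?_, by omega⟩
  have := hg1 y hy
  omega

end Vale.Agent.P181.O2.H247
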