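import Vale.Agent.P181.SZR1b.Upper
import Vale.Agent.P181.SZR2.Final
import Vale.Agent.P181.SZT0.Tr

set_option autoImplicit false

/-!
# P181, O2, (A1): the components with a letter larger than `a` and without letters of size one
-/

open MvPolynomial

namespace Vale.Agent.P181.O2.H247

open Vale.Agent.P181.T4 (HW rowOp rowOp_apply mem_HW)
open Vale.Agent.P181.SZ Vale.Agent.P181.SZR1b
open Vale.Agent.P181.SZR4 (pad)

variable {m a : ℕ}

section core

variable (c : (Fin m × Fin a →₀ ℕ) → ℂ)
  (hrel : ∀ u i, ∑ j, ((u (i, j) : ℂ) + 1) * c (u + Finsupp.single (i, j) 1) = 0)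
  (hsym : ∀ (e : Equiv.Perm (Fin a)) (v w : Fin m × Fin a →₀ ℕ),
    (∀ i j, w (i, e j) = v (i, j)) → c w = c v)

include hrel hsym in
/-- The coefficients with a column of degree `> M` are determined by those without columns of
degree one. -/
theorem B1g (M : ℕ) (h1M : 1 ≤ M)
    (hM : ∀ v : Fin m × Fin a →₀ ℕ, (∀ j, col v j ≠ 1) → (∃ j, M < col v j) → c v = 0) :
    ∀ (n : ℕ) (v : Fin m × Fin a →₀ ℕ), nzc v = n → (∃ j, M < col v j) → c v = 0 := by
  classical
  intro n
  induction n using Nat.strong_induction_on with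
  | _ n ih =>
  intro v hn hv
  by_cases h1 : ∀ j, col v j ≠ 1
  · exact hM v h1 hv
  push Not at h1
  obtain ⟨j0, hj0⟩ := h1
  obtain ⟨i0, u, rfl⟩ := exists_pos (v := v) (j := j0) (by omega)
  have hc := fun j k => col_add_single u i0 j k
  have hu0 : col u j0 = 0 := by
    have := hc j0 j0
    rw [if_pos rfl] at this
    omega
  obtain ⟨jb, hjb⟩ := hv
  have hjb0 : jb ≠ j0 := by
    rintro rfl
    omega
  have hub : M < col u jb := by
    rw [hc j0 jb, if_neg hjb0, add_zero] at hjb
    exact hjb
  have hux : ∀ j, col u j = 0 → ∀ i, u (i, j) = 0 := by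
    intro j hj i
    have := Finset.sum_eq_zero_iff.1 hj i (Finset.mem_univ _)
    exact this
  -- the terms of the relation
  have hz : ∀ j, col u j = 0 → ((u (i0, j) : ℂ) + 1) * c (u + Finsupp.single (i0, j) 1) =
      c (u + Finsupp.single (i0, j0) 1) := by
    intro j hj
    rw [hux j hj i0, Nat.cast_zero, zero_add, one_mul]
    refine hsym (Equiv.swap j0 j) _ _ fun i k => ?_
    simp only [Finsupp.add_apply]
    by_cases hk0 : k = j0
    · subst hk0
      rw [Equiv.swap_apply_left, hux k hu0 i, hux j hj i]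
      by_cases hi : i0 = i
      · subst hi
        simp
      · rw [Finsupp.single_apply, Finsupp.single_apply, if_neg, if_neg]
        · intro h
          exact hi (Prod.ext_iff.1 h).1
        · intro h
          exact hi (Prod.ext_iff.1 h).1
    · by_cases hkj : k = j
      · subst hkj
        rw [Equiv.swap_apply_right, hux j0 hu0 i, hux k hj i, Finsupp.single_apply,
          Finsupp.single_apply, if_neg, if_neg]
        · intro h
          exact hk0 (Prod.ext_iff.1 h).2.symm
        · intro h
          exact hk0 (Prod.ext_iff.1 h).2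
      · rw [Equiv.swap_apply_of_ne_of_ne hk0 hkj, Finsupp.single_apply, Finsupp.single_apply,
          if_neg, if_neg]
        · intro h
          exact hk0 (Prod.ext_iff.1 h).2.symm
        · intro h
          exact hkj (Prod.ext_iff.1 h).2.symm
  have hnz : ∀ j, col u j ≠ 0 → c (u + Finsupp.single (i0, j) 1) = 0 := by
    intro j hj
    have hjj : j ≠ j0 := fun h => hj (h ▸ hu0)
    have hlt : nzc (u + Finsupp.single (i0, j) 1) < n := by
      rw [← hn]
      refine Finset.card_lt_card ?_
      rw [Finset.ssubset_iff_of_subset]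
      · refine ⟨j0, ?_, ?_⟩
        · simp only [Finset.mem_filter, Finset.mem_univ, true_and]
          omega
        · simp only [Finset.mem_filter, Finset.mem_univ, true_and, not_not]
          rw [hc j j0, if_neg hjj.symm, hu0]
      · intro k hk
        simp only [Finset.mem_filter, Finset.mem_univ, true_and] at hk ⊢
        rw [hc j k] at hk
        rw [hc j0 k]
        by_cases hkj : k = j
        · subst hkj
          omega
        · rw [if_neg hkj] at hk
          omega
    refine ih _ hlt _ rfl ⟨jb, ?_⟩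
    rw [hc j jb]
    omega
  have hr := hrel u i0
  rw [← Finset.sum_filter_add_sum_filter_not Finset.univ (fun j => col u j = 0)] at hr
  have h3 : ∑ j ∈ Finset.univ.filter (fun j => ¬ col u j = 0),
      ((u (i0, j) : ℂ) + 1) * c (u + Finsupp.single (i0, j) 1) = 0 :=
    Finset.sum_eq_zero fun j hj => by rw [hnz j (Finset.mem_filter.1 hj).2, mul_zero]
  have h4 : ∑ j ∈ Finset.univ.filter (fun j => col u j = 0),
      ((u (i0, j) : ℂ) + 1) * c (u + Finsupp.single (i0, j) 1) =
      ((Finset.univ.filter (fun j => col u j = 0)).card : ℂ) *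
        c (u + Finsupp.single (i0, j0) 1) := by
    rw [Finset.sum_congr rfl fun j hj => hz j (Finset.mem_filter.1 hj).2, Finset.sum_const,
      nsmul_eq_mul]
  rw [h3, h4, add_zero] at hr
  rcases mul_eq_zero.1 hr with h | h
  · exfalso
    rw [Nat.cast_eq_zero, Finset.card_eq_zero] at h
    have : j0 ∈ Finset.univ.filter (fun j => col u j = 0) := by simp [hu0]
    rw [h] at this
    exact absurd this (Finset.notMem_empty _)
  · exact h

end core

/-- The same for a translation invariant symmetric polynomial. -/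
theorem core_big (F : MvPolynomial (Fin m × Fin a) ℂ) (h : ∀ i, ∑ j, pderiv (i, j) F = 0)
    (hs : ∀ e : Equiv.Perm (Fin a), rename (fun p : Fin m × Fin a => (p.1, e p.2)) F = F)
    (M : ℕ) (h1M : 1 ≤ M)
    (h0 : ∀ v, (∀ j, col v j ≠ 1) → (∃ j, M < col v j) → coeff v F = 0) :
    ∀ v, (∃ j, M < col v j) → coeff v F = 0 := by
  classical
  intro v hv
  refine B1g (fun v => coeff v F) (fun u i => ?_) (fun e v w hvw => ?_) M h1M h0 _ v rfl hv
  · have := congrArg (coeff u) (h i)
    rw [coeff_sum, coeff_zero] at this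
    rw [← this]
    exact Finset.sum_congr rfl fun j _ => by rw [coeff_pderiv, mul_comm]
  · have hinj : Function.Injective (fun p : Fin m × Fin a => (p.1, e p.2)) := by
      rintro ⟨i, j⟩ ⟨i', j'⟩ hp
      simp only [Prod.mk.injEq, EmbeddingLike.apply_eq_iff_eq] at hp
      exact Prod.ext hp.1 hp.2
    have hw : w = v.mapDomain (fun p : Fin m × Fin a => (p.1, e p.2)) := by
      ext ⟨i, j⟩
      have h1 : ((i, j) : Fin m × Fin a) =
          (fun p : Fin m × Fin a => (p.1, e p.2)) (i, e.symm j) := by simp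
      rw [h1, Finsupp.mapDomain_apply hinj]
      exact hvw i (e.symm j)
    have h2 := congrArg (coeff w) (hs e)
    change coeff w F = coeff v F
    rw [← h2, hw, coeff_rename_mapDomain _ hinj]

open scoped Classical in
/-- **(A1)**, `a` points: the types with a letter `> M`. -/
theorem up (a b M m : ℕ) (mu : Fin m → ℕ) (h1M : 1 ≤ M) :
    Module.finrank ℂ (TI a b m mu) ≤ Module.finrank ℂ (TI a M m mu) +
      ∑ k ∈ (PT (∑ i, mu i)).filter (fun k => (∀ x ∈ k, x ≤ b) ∧ Multiset.card k ≤ a ∧
        ∃ x ∈ k, M < x), nn m mu k := by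
  set S := (PT (∑ i, mu i)).filter (fun k => (∀ x ∈ k, x ≤ b) ∧ Multiset.card k ≤ a ∧
    ∃ x ∈ k, M < x) with hS
  have hmem : ∀ k ∈ S, Multiset.card k ≤ a ∧ ∀ x ∈ k, 0 < x := by
    intro k hk
    rw [hS, Finset.mem_filter, PT, Finset.mem_filter] at hk
    exact ⟨hk.2.2.1, fun x hx => lt_of_lt_of_le two_pos (hk.1.2 x hx)⟩
  have hnn : ∀ k ∈ S, nn m mu k = Module.finrank ℂ (PK m (Fin a) (pad a k) mu) := by
    intro k hk
    rw [SZT0.transS m (Fin a) (pad a k) mu, map_pad k (hmem k hk).1, Multiset.filter_add,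
      Multiset.filter_eq_self.2 (hmem k hk).2]
    have : (Multiset.replicate (a - Multiset.card k) 0).filter (0 < ·) = 0 :=
      Multiset.filter_eq_nil.2 fun x hx => by
        rw [Multiset.eq_of_mem_replicate hx]
        exact lt_irrefl 0
    rw [this, add_zero]
  rw [Finset.sum_congr rfl hnn, ← Finset.sum_coe_sort S]
  let L : TI a b m mu →ₗ[ℂ] (∀ k : S, PK m (Fin a) (pad a k) mu) :=
    { toFun := fun F k => ⟨cp m a (pad a k) F, cp_mem_PK F.2.1 F.2.2.1 _⟩
      map_add' := fun F G => by
        funext k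
        exact Subtype.ext (map_add (cp m a (pad a k)) (F : MvPolynomial (Fin m × Fin a) ℂ) G)
      map_smul' := fun c F => by
        funext k
        exact Subtype.ext (map_smul (cp m a (pad a k)) c (F : MvPolynomial (Fin m × Fin a) ℂ)) }
  have hL : ∀ F ∈ LinearMap.ker L, (F : MvPolynomial (Fin m × Fin a) ℂ) ∈ TI a M m mu := by
    intro F hF
    rw [LinearMap.mem_ker] at hF
    refine ⟨F.2.1, F.2.2.1, ?_, F.2.2.2.2⟩
    have key := core_big (F : MvPolynomial (Fin m × Fin a) ℂ) F.2.2.2.2 F.2.2.1 M h1M ?_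
    · intro v hv j
      by_contra hj
      exact hv (key v ⟨j, not_le.1 hj⟩)
    intro v h1 hbig
    by_contra hv
    have hkS : szs v ∈ S := by
      have hpos : ∀ x ∈ szs v, 2 ≤ x ∧ x ≤ b := by
        intro x hx
        unfold szs at hx
        rw [Multiset.mem_filter, Multiset.mem_map] at hx
        obtain ⟨⟨j, -, rfl⟩, hx0⟩ := hx
        have := h1 j
        exact ⟨by omega, F.2.2.2.1 v hv j⟩
      rw [hS, Finset.mem_filter, PT, Finset.mem_filter, Finset.mem_image]
      refine ⟨⟨⟨⟨szs v, fun {x} hx => lt_of_lt_of_le two_pos (hpos x hx).1, ?_⟩,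
        Finset.mem_univ _, rfl⟩, fun x hx => (hpos x hx).1⟩, fun x hx => (hpos x hx).2, ?_, ?_⟩
      · rw [sum_szs]
        unfold col
        rw [Finset.sum_comm]
        exact Finset.sum_congr rfl fun i _ => F.2.1.1 v hv i
      · have := zer_add_card v
        omega
      · obtain ⟨j, hj⟩ := hbig
        refine ⟨col v j, ?_, hj⟩
        unfold szs
        rw [Multiset.mem_filter, Multiset.mem_map]
        exact ⟨⟨j, Finset.mem_univ_val _, rfl⟩, by omega⟩
    obtain ⟨e, he⟩ := exists_sort v
    have hinj : Function.Injective (fun p : Fin m × Fin a => (p.1, e p.2)) := by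
      rintro ⟨i, j⟩ ⟨i', j'⟩ hp
      simp only [Prod.mk.injEq, EmbeddingLike.apply_eq_iff_eq] at hp
      exact Prod.ext hp.1 hp.2
    have hc : coeff (v.mapDomain (fun p : Fin m × Fin a => (p.1, e p.2)))
        (F : MvPolynomial (Fin m × Fin a) ℂ) = coeff v (F : MvPolynomial (Fin m × Fin a) ℂ) := by
      conv_lhs => rw [← F.2.2.1 e]
      exact coeff_rename_mapDomain _ hinj _ v
    have h2 : coeff (v.mapDomain (fun p : Fin m × Fin a => (p.1, e p.2)))
        (cp m a (pad a (szs v)) (F : MvPolynomial (Fin m × Fin a) ℂ)) = 0 := by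
      have h3 : cp m a (pad a (szs v)) (F : MvPolynomial (Fin m × Fin a) ℂ) = 0 :=
        congrArg Subtype.val (congrFun hF ⟨szs v, hkS⟩)
      rw [h3, coeff_zero]
    rw [coeff_cp, if_pos, hc] at h2
    · exact hv h2
    · intro j
      obtain ⟨j, rfl⟩ := e.surjective j
      rw [he j]
      exact Finset.sum_congr rfl fun i _ => Finsupp.mapDomain_apply hinj v (i, j)
  rw [← Module.finrank_pi_fintype ℂ, ← LinearMap.finrank_range_add_finrank_ker L, add_comm]
  refine Nat.add_le_add ?_ (Submodule.finrank_le _)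
  let J : LinearMap.ker L →ₗ[ℂ] TI a M m mu :=
    { toFun := fun F => ⟨((F : TI a b m mu) : MvPolynomial (Fin m × Fin a) ℂ), hL F.1 F.2⟩
      map_add' := fun F G => rfl
      map_smul' := fun c F => rfl }
  refine LinearMap.finrank_le_finrank_of_injective (f := J) ?_
  intro F G hFG
  have h9 : ((F : TI a b m mu) : MvPolynomial (Fin m × Fin a) ℂ) =
      ((G : TI a b m mu) : MvPolynomial (Fin m × Fin a) ℂ) :=
    congrArg (fun t : TI a M m mu => (t : MvPolynomial (Fin m × Fin a) ℂ)) hFG
  exact Subtype.ext (Subtype.ext h9)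

open scoped Classical in
/-- **(A1)**, the form `h1` of `O2.H104.core`: `b` points, degrees at most `w`. -/
theorem h1 (a b m : ℕ) (mu : Fin m → ℕ) (ha : 1 ≤ a) :
    Module.finrank ℂ (TI b (∑ i, mu i) m mu) ≤ Module.finrank ℂ (TI b a m mu) +
      ∑ K ∈ (PT (∑ i, mu i)).filter (fun K => ∃ x ∈ K, a < x), nn m mu K := by
  refine (up b (∑ i, mu i) a m mu ha).trans (Nat.add_le_add_left ?_ _)
  refine Finset.sum_le_sum_of_subset fun k hk => ?_
  rw [Finset.mem_filter] at hk ⊢
  exact ⟨hk.1, hk.2.2.2⟩

end Vale.Agent.P181.O2.H247
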