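import Vale.Agent.P181.DG6.H887.Ind
import Vale.Agent.P181.SZR2.Final

set_option autoImplicit false

/-!
# P181, O2, (A2): independence modulo the polynomials of small degree in each column
-/

open MvPolynomial

namespace Vale.Agent.P181.O2.H247

open Vale.Agent.P181.T4 (HW ColHom symP evalP evalP_apply evalP_inj)
open Vale.Agent.P181.SZR2 (zz ext0 sum_perm exists_dead ext0_cast map_get eval_aeval')
open Vale.Agent.P181.DG6.H887 (evalP_scale' evalP_stab')

variable {m b l : ℕ}

/-- The substitution `y_j = s_j u_j` for `j < l`, `y_j = 0` for `j ≥ l`. -/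
noncomputable def sq (b : ℕ) (u : Fin l → Fin m → ℂ) (p : Fin m × Fin b) :
    MvPolynomial (Fin l) ℂ :=
  if h : (p.2 : ℕ) < l then C (u ⟨p.2, h⟩ p.1) * X ⟨p.2, h⟩ else 0

lemma eval_sq (u : Fin l → Fin m → ℂ) (F : MvPolynomial (Fin m × Fin b) ℂ) (s : Fin l → ℂ) :
    eval s (aeval (sq b u) F) = evalP b m F (ext0 b fun j => s j • u j) := by
  rw [eval_aeval', evalP_apply]
  congr 2
  funext p
  unfold sq ext0
  by_cases h : (p.2 : ℕ) < l
  · rw [dif_pos h, dif_pos h, map_mul, eval_C, eval_X]
    exact mul_comm _ _
  · rw [dif_neg h, dif_neg h, map_zero, Pi.zero_apply]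

lemma deg_sq (u : Fin l → Fin m → ℂ) {F : MvPolynomial (Fin m × Fin b) ℂ} {D : ℕ}
    (hF : ∀ v, coeff v F ≠ 0 → ∀ j, ∑ i, v (i, j) ≤ D) (j : Fin l) :
    degreeOf j (aeval (sq b u) F) ≤ D := by
  classical
  rw [aeval_def, eval₂_eq']
  refine (degreeOf_sum_le _ _ _).trans (Finset.sup_le fun v hv => ?_)
  refine (degreeOf_C_mul_le _ _ _).trans ((degreeOf_prod_le _ _ _).trans ?_)
  have h1 : ∀ p : Fin m × Fin b, degreeOf j (sq b u p ^ v p) ≤
      if (p.2 : ℕ) = j then v p else 0 := by
    intro p
    refine (degreeOf_pow_le _ _ _).trans ?_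
    unfold sq
    by_cases h : (p.2 : ℕ) < l
    · rw [dif_pos h]
      by_cases hp : (p.2 : ℕ) = j
      · rw [if_pos hp]
        have h2 : degreeOf j (C (u ⟨p.2, h⟩ p.1) * X ⟨p.2, h⟩ : MvPolynomial (Fin l) ℂ) ≤ 1 := by
          refine (degreeOf_C_mul_le _ _ _).trans ?_
          rw [degreeOf_X]
          split_ifs <;> omega
        calc _ ≤ v p * 1 := Nat.mul_le_mul_left _ h2
          _ = v p := mul_one _
      · rw [if_neg hp]
        have h2 : degreeOf j (C (u ⟨p.2, h⟩ p.1) * X ⟨p.2, h⟩ : MvPolynomial (Fin l) ℂ) ≤ 0 := by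
          refine (degreeOf_C_mul_le _ _ _).trans ?_
          rw [degreeOf_X, if_neg]
          intro h3
          exact hp (congrArg Fin.val h3).symm
        calc _ ≤ v p * 0 := Nat.mul_le_mul_left _ h2
          _ = 0 := mul_zero _
    · rw [dif_neg h, degreeOf_zero, mul_zero]
      exact Nat.zero_le _
  refine (Finset.sum_le_sum fun p _ => h1 p).trans ?_
  rw [Fintype.sum_prod_type, Finset.sum_comm]
  by_cases hj : (j : ℕ) < b
  · rw [Finset.sum_eq_single (⟨j, hj⟩ : Fin b)]
    · refine le_trans (le_of_eq ?_) (hF v (mem_support_iff.1 hv) ⟨j, hj⟩)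
      exact Finset.sum_congr rfl fun i _ => if_pos rfl
    · intro c _ hc
      refine Finset.sum_eq_zero fun i _ => if_neg fun h => ?_
      exact hc (Fin.ext h)
    · intro h
      exact absurd (Finset.mem_univ _) h
  · refine le_trans (le_of_eq ?_) (Nat.zero_le _)
    refine Finset.sum_eq_zero fun c _ => Finset.sum_eq_zero fun i _ => if_neg fun h => ?_
    have := c.2
    change (c : ℕ) = j at h
    omega

/-- **Independence**, modulo the polynomials of degree `≤ D` in each column, of the types with a
letter `> D`. -/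
theorem indF {ι : Type} [Fintype ι] (ty : ι → Multiset ℕ) (hty : Function.Injective ty)
    (h2 : ∀ i, ∀ x ∈ ty i, 2 ≤ x) (hh : ∀ i, 3 * (ty i).toList.length ≤ b)
    (D : ℕ) (hD : ∀ i, ∃ x ∈ ty i, D < x)
    (F : MvPolynomial (Fin m × Fin b) ℂ) (hF : ∀ v, coeff v F ≠ 0 → ∀ j, ∑ i, v (i, j) ≤ D)
    (g : ∀ i, MvPolynomial (Fin m × Fin (ty i).toList.length) ℂ)
    (hg : ∀ i v, coeff v (g i) ≠ 0 → ∀ j, ∑ r, v (r, j) = (ty i).toList.get j)
    (hs : ∀ i (e : Equiv.Perm (Fin (ty i).toList.length)),
      (∀ j, (ty i).toList.get (e j) = (ty i).toList.get j) →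
      rename (fun p : Fin m × Fin (ty i).toList.length => (p.1, e p.2)) (g i) = g i)
    (h0 : ∀ y : Fin b → Fin m → ℂ, ∑ i, ∑ σ : Equiv.Perm (Fin b),
      evalP _ m (g i) (zz (hh i) (fun c => y (σ c))) = evalP b m F y) : ∀ i, g i = 0 := by
  classical
  by_contra hne
  push Not at hne
  -- a nonzero one with fewest columns
  obtain ⟨i0, hi0, hmin⟩ : ∃ i0, g i0 ≠ 0 ∧ ∀ i, g i ≠ 0 →
      (ty i0).toList.length ≤ (ty i).toList.length := by
    obtain ⟨i1, hi1⟩ := hne
    obtain ⟨i0, hi0, hmin⟩ := Finset.exists_min_image (Finset.univ.filter fun i => g i ≠ 0)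
      (fun i => (ty i).toList.length) ⟨i1, Finset.mem_filter.2 ⟨Finset.mem_univ _, hi1⟩⟩
    exact ⟨i0, (Finset.mem_filter.1 hi0).2,
      fun i hi => hmin i (Finset.mem_filter.2 ⟨Finset.mem_univ _, hi⟩)⟩
  have hcnt : ∀ i, ∃ C : ℂ, C ≠ 0 ∧ ∀ y : Fin (ty i).toList.length → Fin m → ℂ,
      ∑ σ : Equiv.Perm (Fin b), evalP _ m (g i) (zz (hh i) (fun c => ext0 b y (σ c))) =
        C * ∑ τ : Equiv.Perm (Fin (ty i).toList.length), evalP _ m (g i) (fun j => y (τ j)) := by
    intro i
    refine sum_perm (hh i) (fun j => (ty i).toList.get j) (fun j => h2 i _ ?_) _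
      (fun c w => evalP_scale' (hg i) c w)
    exact Multiset.mem_toList.1 (List.get_mem _ _)
  choose C hC0 hC using hcnt
  -- the sum over the permutations for the live columns of `i0`
  have hS : ∀ (i : ι) (u : Fin (ty i0).toList.length → Fin m → ℂ),
      ∑ σ : Equiv.Perm (Fin b), evalP _ m (g i) (zz (hh i) (fun c => ext0 b u (σ c))) =
        if e : (ty i).toList.length = (ty i0).toList.length then
          C i * ∑ τ : Equiv.Perm (Fin (ty i).toList.length),
            evalP _ m (g i) (fun j => u (Fin.cast e (τ j))) else 0 := by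
    intro i u
    by_cases hgi : g i = 0
    · simp only [hgi, map_zero, Pi.zero_apply, Finset.sum_const_zero, mul_zero, dite_eq_ite,
        ite_self]
    · rcases (hmin i hgi).lt_or_eq with hlt | heq
      · rw [dif_neg hlt.ne']
        refine Finset.sum_eq_zero fun σ _ => ?_
        obtain ⟨j, hj⟩ := exists_dead hlt (hh i) u σ
        have h3 := evalP_scale' (hg i) (Function.update (fun _ => 1) j 0)
          (zz (hh i) fun c => ext0 b u (σ c))
        rw [Finset.prod_eq_zero (Finset.mem_univ j), zero_mul] at h3
        · rw [← h3]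
          refine congrArg _ (funext fun x => ?_)
          by_cases hx : x = j
          · subst hx
            rw [Function.update_self, zero_smul, hj]
          · rw [Function.update_of_ne hx, one_smul]
        · rw [Function.update_self, zero_pow]
          have := h2 i ((ty i).toList.get j) (Multiset.mem_toList.1 (List.get_mem _ _))
          omega
      · rw [dif_pos heq.symm, ext0_cast heq.symm u]
        exact hC i _
  -- the polynomial in the scaling parameters
  let E : ∀ (i : ι) (_ : (ty i).toList.length = (ty i0).toList.length)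
      (_ : Equiv.Perm (Fin (ty i).toList.length)), Fin (ty i0).toList.length →₀ ℕ :=
    fun i e τ => Finsupp.equivFunOnFinite.symm
      (fun x => (ty i).toList.get (τ.symm (Fin.cast e.symm x)))
  have key : ∀ u : Fin (ty i0).toList.length → Fin m → ℂ, evalP _ m (g i0) u = 0 := by
    intro u
    let P : MvPolynomial (Fin (ty i0).toList.length) ℂ :=
      ∑ i, if e : (ty i).toList.length = (ty i0).toList.length then
        ∑ τ : Equiv.Perm (Fin (ty i).toList.length),
          monomial (E i e τ) (C i * evalP _ m (g i) (fun j => u (Fin.cast e (τ j)))) else 0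
    have hP : P = aeval (sq b u) F := by
      apply MvPolynomial.funext
      intro s
      rw [eval_sq]
      have h3 := h0 (ext0 b fun j => s j • u j)
      rw [Finset.sum_congr rfl fun i _ => hS i _] at h3
      rw [← h3, map_sum]
      refine Finset.sum_congr rfl fun i _ => ?_
      by_cases e : (ty i).toList.length = (ty i0).toList.length
      · rw [dif_pos e, dif_pos e, map_sum, Finset.mul_sum]
        refine Finset.sum_congr rfl fun τ _ => ?_
        rw [eval_monomial, evalP_scale' (hg i) (fun j => s (Fin.cast e (τ j)))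
          (fun j => u (Fin.cast e (τ j)))]
        have h4 : (E i e τ).prod (fun n k => s n ^ k) =
            ∏ j, s (Fin.cast e (τ j)) ^ (ty i).toList.get j := by
          rw [Finsupp.prod_fintype _ _ (fun _ => pow_zero _)]
          rw [← Equiv.prod_comp (τ.trans (finCongr e))]
          refine Finset.prod_congr rfl fun j _ => ?_
          have h5 : (E i e τ) ((τ.trans (finCongr e)) j) = (ty i).toList.get j := by
            change (ty i).toList.get (τ.symm (Fin.cast e.symm (Fin.cast e (τ j)))) = _
            rw [Fin.cast_cast, Fin.cast_eq_self, Equiv.symm_apply_apply]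
          rw [h5]
          rfl
        rw [h4]
        ring
      · rw [dif_neg e, dif_neg e, map_zero]
    have hQ : coeff (Finsupp.equivFunOnFinite.symm (fun x => (ty i0).toList.get x))
        (aeval (sq b u) F) = 0 := by
      by_contra h
      obtain ⟨x, hx, hDx⟩ := hD i0
      obtain ⟨j, hj⟩ := List.get_of_mem (Multiset.mem_toList.2 hx)
      have h5 := degreeOf_le_iff.1 (deg_sq u hF j) _ (mem_support_iff.2 h)
      change (ty i0).toList.get j ≤ D at h5
      rw [hj] at h5
      omega
    have hκ := congrArg (coeff (Finsupp.equivFunOnFinite.symm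
      (fun x => (ty i0).toList.get x))) hP
    rw [hQ, coeff_sum, Finset.sum_eq_single i0] at hκ
    · rw [dif_pos rfl, coeff_sum] at hκ
      have h5 : ∀ τ : Equiv.Perm (Fin (ty i0).toList.length),
          coeff (Finsupp.equivFunOnFinite.symm (fun x => (ty i0).toList.get x))
            (monomial (E i0 rfl τ) (C i0 * evalP _ m (g i0) (fun j => u (Fin.cast rfl (τ j))))) =
          if (∀ x, (ty i0).toList.get (τ x) = (ty i0).toList.get x) then
            C i0 * evalP _ m (g i0) u else 0 := by
        intro τ
        rw [coeff_monomial]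
        by_cases hτ : ∀ x, (ty i0).toList.get (τ x) = (ty i0).toList.get x
        · rw [if_pos hτ, if_pos]
          · congr 1
            exact evalP_stab' τ (hs i0 τ hτ) u
          · ext x
            change (ty i0).toList.get (τ.symm x) = (ty i0).toList.get x
            rw [← hτ (τ.symm x), Equiv.apply_symm_apply]
        · rw [if_neg hτ, if_neg]
          intro h6
          apply hτ
          intro x
          have h7 := DFunLike.congr_fun h6 (τ x)
          change (ty i0).toList.get (τ.symm (τ x)) = (ty i0).toList.get (τ x) at h7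
          rw [Equiv.symm_apply_apply] at h7
          exact h7.symm
      rw [Finset.sum_congr rfl fun τ _ => h5 τ, ← Finset.sum_filter, Finset.sum_const,
        nsmul_eq_mul] at hκ
      have h6 : ((Finset.univ.filter fun τ : Equiv.Perm (Fin (ty i0).toList.length) =>
          ∀ x, (ty i0).toList.get (τ x) = (ty i0).toList.get x).card : ℂ) ≠ 0 := by
        rw [Nat.cast_ne_zero, ← Nat.pos_iff_ne_zero, Finset.card_pos]
        exact ⟨1, Finset.mem_filter.2 ⟨Finset.mem_univ _, fun x => rfl⟩⟩
      exact (mul_eq_zero.1 ((mul_eq_zero.1 hκ).resolve_left h6)).resolve_left (hC0 i0)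
    · intro i _ hi
      by_cases e : (ty i).toList.length = (ty i0).toList.length
      · rw [dif_pos e, coeff_sum]
        refine Finset.sum_eq_zero fun τ _ => ?_
        rw [coeff_monomial, if_neg]
        intro h6
        apply hi
        apply hty
        rw [← map_get (ty i), ← map_get (ty i0)]
        have h7 : (fun j => (ty i).toList.get j) =
            (fun x => (ty i0).toList.get x) ∘ (τ.trans (finCongr e)) := by
          funext j
          have h8 := DFunLike.congr_fun h6 (Fin.cast e (τ j))
          change (ty i).toList.get (τ.symm (Fin.cast e.symm (Fin.cast e (τ j)))) =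
            (ty i0).toList.get (Fin.cast e (τ j)) at h8
          rw [Fin.cast_cast, Fin.cast_eq_self, Equiv.symm_apply_apply] at h8
          exact h8
        rw [h7, ← Multiset.map_map]
        congr 1
        have h9 := Finset.map_univ_equiv (τ.trans (finCongr e))
        have h10 := congrArg Finset.val h9
        rw [Finset.map_val] at h10
        exact h10
      · rw [dif_neg e, coeff_zero]
    · intro h'
      exact absurd (Finset.mem_univ _) h'
  apply hi0
  apply evalP_inj
  funext u
  rw [key u, map_zero, Pi.zero_apply]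

end Vale.Agent.P181.O2.H247
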