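import Vale.Agent.P181.O2.Defs
import Vale.Agent.P181.O2.H247.Up
import Vale.Agent.P181.O2.H247.Lo
import Vale.Agent.P181.O2.H247.Ind
import Vale.Agent.P181.SZR1b.Main

set_option autoImplicit false

/-!
# P181, O2: the literals `A1` and `A2`
-/

open MvPolynomial

namespace Vale.Agent.P181.O2.H247

open Vale.Agent.P181.T4 (HW evalP evalP_apply)
open Vale.Agent.P181.SZ (TI mem_TI PT PK nn)
open Vale.Agent.P181.SZR2 (zz map_get)
open Vale.Agent.P181.SZR4 (vm)
open Vale.Agent.P181.SZT0 (rc rc_inj inj_pr coeff_rc rc_mem_HW transS)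
open Vale.Agent.P181.DG (PKT NT KT)
open Vale.Agent.P181.DG0 (mem_PKT)
open Vale.Agent.P181.TW.T2 (mem_KT le_zero rc_mem_zero)
open Vale.Agent.P181.O2.H104 (mem_PT)
open Vale.Agent.P181.DG6.H887 (sy sb sy_sb_mem eval_sy_sb pt pe evalP_pe col_pe sym_pe)

open scoped Classical in
/-- **(A1)** -/
theorem a1 : A1 := by
  intro a b m mu
  rcases Nat.eq_zero_or_pos a with rfl | ha
  · rcases Nat.eq_zero_or_pos (∑ i, mu i) with h0 | h0
    · rw [h0]
      exact Nat.le_add_right _ _
    · refine le_trans ?_ (Nat.le_add_left _ _)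
      refine (Vale.Agent.P181.SZR1b.r1b transS b (∑ i, mu i) m mu).trans ?_
      refine Finset.sum_le_sum_of_subset fun k hk => ?_
      rw [Finset.mem_filter] at hk ⊢
      refine ⟨hk.1, ?_⟩
      have h1 := mem_PT.1 hk.1
      by_contra h2
      push Not at h2
      have h3 : k.sum = 0 := Multiset.sum_eq_zero fun x hx => by
        have := h2 x hx
        omega
      omega
  · exact h1 a b m mu ha

section lift

variable {m a l : ℕ}

/-- The types as columns of `Empty ⊕ Fin l`. -/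
lemma rc_mem_PK {k : Fin l → ℕ} {mu : Fin m → ℕ} {f : MvPolynomial (Fin m × Fin l) ℂ}
    (hf : f ∈ PK m (Fin l) k mu) :
    rc m (Sum.inr : Fin l → Empty ⊕ Fin l) f ∈
      PK m (Empty ⊕ Fin l) (Sum.elim (fun _ => 0) k) mu := by
  obtain ⟨hf1, hf2, hf3⟩ := hf
  have hι : Function.Injective (Sum.inr : Fin l → Empty ⊕ Fin l) := Sum.inr_injective
  refine ⟨(rc_mem_HW hι).2 hf1, ?_, ?_⟩
  · intro v hv j
    obtain ⟨u, hu, h4, h5⟩ := coeff_rc hι hv
    obtain j | j := j
    · exact j.elim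
    · rw [Finset.sum_congr rfl fun i _ => h4 i j]
      exact hf2 u hu j
  · intro e he
    have h1 : ∀ j : Fin l, ∃ j' : Fin l, e (Sum.inr j) = Sum.inr j' := by
      intro j
      rcases h : e (Sum.inr j) with x | x
      · exact x.elim
      · exact ⟨x, rfl⟩
    choose s hs using h1
    have hsi : Function.Injective s := by
      intro x y hxy
      have h2 : e (Sum.inr x) = e (Sum.inr y) := by rw [hs, hs, hxy]
      exact Sum.inr_injective (e.injective h2)
    let s' : Equiv.Perm (Fin l) := Equiv.ofBijective s (Finite.injective_iff_bijective.1 hsi)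
    have h2 : rename (fun p : Fin m × (Empty ⊕ Fin l) => (p.1, e p.2))
        (rc m (Sum.inr : Fin l → Empty ⊕ Fin l) f) = rc m (Sum.inr : Fin l → Empty ⊕ Fin l)
          (rename (fun p : Fin m × Fin l => (p.1, s' p.2)) f) := by
      rw [rc, rename_rename, rename_rename]
      congr 2
      funext p
      obtain ⟨i, j⟩ := p
      exact Prod.ext rfl (hs j)
    have h3 : ∀ j, k (s' j) = k j := by
      intro j
      have h4 := he (Sum.inr j)
      rw [hs j] at h4
      exact h4
    rw [h2, hf3 s' h3]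

/-- The lift of a polynomial of the type `k`. -/
noncomputable def lf (m a : ℕ) {l : ℕ} (h : 3 * l ≤ a) :
    MvPolynomial (Fin m × Fin l) ℂ →ₗ[ℂ] MvPolynomial (Fin m × (Empty ⊕ Fin a)) ℂ :=
  (sy m Empty a) ∘ₗ (sb m Empty h).toLinearMap ∘ₗ
    (rc m (Sum.inr : Fin l → Empty ⊕ Fin l)).toLinearMap

lemma lf_apply (h : 3 * l ≤ a) (f : MvPolynomial (Fin m × Fin l) ℂ) :
    lf m a h f = sy m Empty a (sb m Empty h (rc m (Sum.inr : Fin l → Empty ⊕ Fin l) f)) := rfl

lemma lf_mem {w : ℕ} (h : 3 * l ≤ a) {k : Fin l → ℕ} (hk : ∀ j, k j < w + 1) {mu : Fin m → ℕ}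
    {f : MvPolynomial (Fin m × Fin l) ℂ} (hf : f ∈ PK m (Fin l) k mu) :
    lf m a h f ∈ PKT m (w + 1) Empty (fun _ => 0) a mu :=
  sy_sb_mem (by omega) h hk (rc_mem_PK hf)

lemma eval_lf (h : 3 * l ≤ a) (f : MvPolynomial (Fin m × Fin l) ℂ) (Y : Empty → Fin m → ℂ)
    (w : Fin a → Fin m → ℂ) :
    eval (pt Y w) (lf m a h f) =
      ∑ s : Equiv.Perm (Fin a), evalP l m f (zz h fun c => w (s c)) := by
  rw [lf_apply, eval_sy_sb]
  refine Finset.sum_congr rfl fun s _ => ?_
  rw [rc, eval_rename, evalP_apply]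
  rfl

lemma eval_rc (f : MvPolynomial (Fin m × Fin a) ℂ) (Y : Empty → Fin m → ℂ)
    (w : Fin a → Fin m → ℂ) :
    eval (pt Y w) (rc m (Sum.inr : Fin a → Empty ⊕ Fin a) f) = evalP a m f w := by
  rw [rc, eval_rename, evalP_apply]
  rfl

end lift

open scoped Classical in
/-- **(A2)** -/
theorem a2 : A2 := by
  intro a b m mu hb
  generalize hw : ∑ i, mu i = w
  rw [hw] at hb
  generalize hT : (PT w).filter (fun K => (∃ x ∈ K, b < x) ∧ 3 * Multiset.card K ≤ a) = T
  have hmem : ∀ k ∈ T, (∀ x ∈ k, 2 ≤ x) ∧ (∀ x ∈ k, x < w + 1) ∧ (∃ x ∈ k, b < x) ∧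
      3 * k.toList.length ≤ a := by
    intro k hk
    rw [← hT, Finset.mem_filter, mem_PT] at hk
    refine ⟨hk.1.2, fun x hx => ?_, hk.2.1, by rw [Multiset.length_toList]; exact hk.2.2⟩
    have h3 := Multiset.le_sum_of_mem hx
    rw [hk.1.1] at h3
    omega
  rcases Nat.eq_zero_or_pos w with h0 | h0
  · have hb0 : b = w := by omega
    have h2 : T = ∅ := Finset.eq_empty_of_forall_notMem fun k hk => by
      obtain ⟨x, hx, hbx⟩ := (hmem k hk).2.2.1
      have := (hmem k hk).2.1 x hx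
      omega
    rw [h2, Finset.sum_empty, add_zero, hb0]
  -- the target
  have h1 : Module.finrank ℂ (PKT m (w + 1) Empty (fun _ => 0) a mu) ≤
      Module.finrank ℂ (TI a w m mu) := by
    have h2 := Vale.Agent.P181.DGx.H831.transT m (w + 1) Empty (fun _ => 0) a mu
    have h3 : (Finset.univ : Finset Empty).val.map (fun _ => 0) = (0 : Multiset ℕ) := rfl
    rw [h3] at h2
    rw [h2]
    have h4 := Vale.Agent.P181.DGx.H248.lowT w a m (w + 1) mu (by omega) (by omega)
    rw [hw] at h4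
    refine le_trans ?_ h4
    have h5 : (0 : Multiset ℕ) ∈ (KT w (w + 1)).filter
        (fun k => 3 * Multiset.card k ≤ a ∧ ∀ x ∈ k, x ≤ w) := by
      rw [Finset.mem_filter, mem_KT (by omega)]
      exact ⟨⟨by simp, fun x hx => absurd hx (Multiset.notMem_zero x)⟩, by simp,
        fun x hx => absurd hx (Multiset.notMem_zero x)⟩
    have h6 := Finset.single_le_sum (f := fun kap =>
      NT m (w + 1) mu kap (a - 3 * Multiset.card kap)) (fun _ _ => Nat.zero_le _) h5
    refine le_trans (le_of_eq ?_) h6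
    simp only [Multiset.card_zero, mul_zero, Nat.sub_zero]
  refine le_trans ?_ h1
  rw [← Finset.sum_coe_sort T]
  let V := (k : T) → PK m (Fin (k : Multiset ℕ).toList.length)
    (fun j => (k : Multiset ℕ).toList.get j) mu
  let L1 : TI a b m mu →ₗ[ℂ] PKT m (w + 1) Empty (fun _ => 0) a mu :=
    (rc m (Sum.inr : Fin a → Empty ⊕ Fin a)).toLinearMap.restrict fun f hf => by
      have h2 := rc_mem_zero hf
      obtain ⟨h3, h4, h5, h6⟩ := mem_PKT.1 h2
      exact mem_PKT.2 ⟨h3, fun v hv => ⟨(h4 v hv).1, fun j => by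
        have := (h4 v hv).2 j
        omega⟩, h5, h6⟩
  let L2 : V →ₗ[ℂ] PKT m (w + 1) Empty (fun _ => 0) a mu :=
    ∑ k : T, ((lf m a (hmem k.1 k.2).2.2.2).restrict fun f hf =>
      lf_mem (hmem k.1 k.2).2.2.2 (fun j => (hmem k.1 k.2).2.1 _
        (Multiset.mem_toList.1 (List.get_mem _ _))) hf) ∘ₗ LinearMap.proj k
  have hfr : Module.finrank ℂ (TI a b m mu × V) = Module.finrank ℂ (TI a b m mu) +
      ∑ k : T, nn m mu k.1 := by
    rw [Module.finrank_prod, Module.finrank_pi_fintype]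
    rfl
  rw [← hfr]
  refine LinearMap.finrank_le_finrank_of_injective (f := L1.coprod L2) ?_
  rw [← LinearMap.ker_eq_bot, LinearMap.ker_eq_bot']
  rintro ⟨F, G⟩ hFG
  have h2 : rc m (Sum.inr : Fin a → Empty ⊕ Fin a) (F : MvPolynomial (Fin m × Fin a) ℂ) +
      ∑ k : T, lf m a (hmem k.1 k.2).2.2.2 (G k).1 = 0 := by
    have h3 := congrArg (Submodule.subtype (PKT m (w + 1) Empty (fun _ => 0) a mu)) hFG
    rw [LinearMap.coprod_apply, map_add, LinearMap.sum_apply, map_sum, map_zero] at h3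
    exact h3
  have h3 : ∀ k : T, (G k).1 = 0 := by
    refine indF (b := a) (fun k : T => k.1) Subtype.val_injective (fun k => (hmem k.1 k.2).1)
      (fun k => (hmem k.1 k.2).2.2.2) b (fun k => (hmem k.1 k.2).2.2.1)
      (-(F : MvPolynomial (Fin m × Fin a) ℂ)) ?_ (fun k => (G k).1) (fun k => (G k).2.2.1)
      (fun k => (G k).2.2.2) ?_
    · intro v hv
      rw [coeff_neg, neg_ne_zero] at hv
      exact (mem_TI.1 F.2).2.2.1 v hv
    · intro y
      have h4 := congrArg (eval (pt (fun e : Empty => e.elim) y)) h2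
      rw [map_add, map_sum, map_zero, eval_rc] at h4
      rw [map_neg, Pi.neg_apply, eq_neg_iff_add_eq_zero, add_comm, ← h4]
      congr 1
      exact Finset.sum_congr rfl fun k _ => (eval_lf _ _ _ _).symm
  have h4 : (F : MvPolynomial (Fin m × Fin a) ℂ) = 0 := by
    apply rc_inj (m := m) (Sum.inr_injective : Function.Injective (Sum.inr : Fin a → Empty ⊕ Fin a))
    rw [map_zero]
    rw [Finset.sum_eq_zero, add_zero] at h2
    · exact h2
    · intro k _
      rw [h3 k, map_zero]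
  refine Prod.ext (Subtype.ext h4) ?_
  funext k
  exact Subtype.ext (h3 k)

end Vale.Agent.P181.O2.H247
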